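import Vale.Agent.P101.Defs

/-!
# P101: polynomials in commuting self-adjoint elements
-/

open scoped IsMulCommutative

noncomputable section

namespace Vale.Agent.P101.Colours

open MvPolynomial

variable {B : Type*} [CStarAlgebra B] [PartialOrder B] [StarOrderedRing B]

/-- The evaluation at commuting self-adjoint elements. -/
theorem exists_eval {m : ℕ} (u : Fin m → B) (hu : ∀ s, IsSelfAdjoint (u s))
    (hc : ∀ s t, Commute (u s) (u t)) :
    ∃ φ : MvPolynomial (Fin m) ℝ →ₐ[ℝ] B, (∀ s, φ (X s) = u s) ∧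
      (∀ f y, (∀ s, Commute y (u s)) → Commute y (φ f)) ∧ (∀ f, star (φ f) = φ f) ∧
      ∀ R : ℝ, (∀ s, ∀ t ∈ spectrum ℝ (u s), t ∈ Set.Icc 0 R) → ∀ f,
        (∀ t : Fin m → ℝ, (∀ s, t s ∈ Set.Icc 0 R) → 0 ≤ eval t f) → 0 ≤ φ f := by
  classical
  set S₀ := StarAlgebra.adjoin ℂ (Set.range u) with hS₀
  have hS₀c : IsMulCommutative S₀ := StarAlgebra.isMulCommutative_adjoin ℂ
    (by rintro _ ⟨s, rfl⟩ _ ⟨t, rfl⟩; exact hc s t)
    (by rintro _ ⟨s, rfl⟩ _ ⟨t, rfl⟩; rw [(hu t).star_eq]; exact hc s t)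
  set S := S₀.topologicalClosure with hS
  let : CommRing S := StarSubalgebra.commRingTopologicalClosure S₀
    fun a b => Subtype.ext (setLike_mul_comm a.2 b.2)
  have : IsClosed (S : Set B) := S₀.isClosed_topologicalClosure
  let : CommCStarAlgebra S :=
    { (inferInstance : CStarAlgebra S) with
      mul_comm := fun a b => mul_comm (G := S) a b }
  have hmem : ∀ s, u s ∈ S := fun s =>
    S₀.le_topologicalClosure (StarAlgebra.subset_adjoin ℂ _ ⟨s, rfl⟩)
  let inc : S →ₐ[ℝ] B := (S.subtype.toAlgHom).restrictScalars ℝ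
  let ψ : MvPolynomial (Fin m) ℝ →ₐ[ℝ] S := aeval fun s => ⟨u s, hmem s⟩
  have hstar : ∀ f, star ((inc.comp ψ) f) = (inc.comp ψ) f := by
    intro f
    induction f using MvPolynomial.induction_on with
    | C a =>
      have : (inc.comp ψ) (C a) = algebraMap ℝ B a := (inc.comp ψ).commutes a
      rw [this, ← algebraMap_star_comm, star_trivial]
    | add f g hf hg => rw [map_add, star_add, hf, hg]
    | mul_X f s hf =>
      rw [map_mul, star_mul, hf, show (inc.comp ψ) (X s) = u s by simp [inc, ψ], (hu s).star_eq]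
      exact congrArg Subtype.val (mul_comm (ψ (X s)) (ψ f)) |> fun h => by
        simpa [inc, ψ] using h
  refine ⟨inc.comp ψ, fun s => by simp [inc, ψ], fun f y hy => ?_, hstar, fun R hR f hf => ?_⟩
  · induction f using MvPolynomial.induction_on with
    | C a =>
      have : (inc.comp ψ) (C a) = algebraMap ℝ B a := (inc.comp ψ).commutes a
      rw [this]; exact (Algebra.commutes a y).symm
    | add f g hf hg => rw [map_add]; exact hf.add_right hg
    | mul_X f s hf =>
      rw [map_mul]
      exact hf.mul_right (by simpa [inc, ψ] using hy s)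
  · have hsa : IsSelfAdjoint ((inc.comp ψ) f) := hstar f
    refine (StarOrderedRing.nonneg_iff_spectrum_nonneg (R := ℝ) _ hsa).2 fun r hr => ?_
    have h1 : (algebraMap ℝ ℂ r) ∈ spectrum ℂ ((ψ f : S) : B) := (spectrum.algebraMap_mem_iff ℂ).2 hr
    rw [← StarSubalgebra.spectrum_eq (hS := S₀.isClosed_topologicalClosure)] at h1
    obtain ⟨χ, hχ⟩ := WeakDual.CharacterSpace.mem_spectrum_iff_exists.1 h1
    have hval : ∀ s, ∃ t ∈ Set.Icc 0 R, χ ⟨u s, hmem s⟩ = algebraMap ℝ ℂ t := by
      intro s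
      have h2 : χ ⟨u s, hmem s⟩ ∈ spectrum ℂ (⟨u s, hmem s⟩ : S) :=
        WeakDual.CharacterSpace.mem_spectrum_iff_exists.2 ⟨χ, rfl⟩
      rw [StarSubalgebra.spectrum_eq (hS := S₀.isClosed_topologicalClosure)] at h2
      have h3 := (hu s).mem_spectrum_eq_re h2
      refine ⟨(χ ⟨u s, hmem s⟩).re, hR s _ ((spectrum.algebraMap_mem_iff ℂ).1 ?_), h3⟩
      rw [Complex.coe_algebraMap, ← h3]; exact h2
    choose t ht hχt using hval
    have hev : ∀ g, χ (ψ g) = algebraMap ℝ ℂ (eval t g) := by
      intro g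
      induction g using MvPolynomial.induction_on with
      | C a =>
        simp only [ψ, aeval_C, eval_C]
        rw [IsScalarTower.algebraMap_apply ℝ ℂ S]
        exact AlgHomClass.commutes χ _
      | add g h hg hh => simp only [map_add, hg, hh]
      | mul_X g s hg =>
        simp only [map_mul, hg, eval_X]
        congr 1
        simpa [ψ] using hχt s
    rw [hev] at hχ
    have hr' : eval t f = r := Complex.ofReal_inj.1 (by simpa [Complex.coe_algebraMap] using hχ)
    rw [← hr']
    exact hf t ht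

end Vale.Agent.P101.Colours
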