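import Mathlib

/-!
# P101: Gram-Schmidt without division, for polynomial weights
-/

open Finset MvPolynomial

noncomputable section

namespace Vale.Agent.P101.Colours

open scoped Classical

/-- The inner product with the variables as weights. -/
def ip {m : ℕ} (p q : Fin m → MvPolynomial (Fin m) ℝ) : MvPolynomial (Fin m) ℝ :=
  ∑ s, X s * p s * q s

theorem ip_comm {m : ℕ} (p q : Fin m → MvPolynomial (Fin m) ℝ) : ip p q = ip q p :=
  sum_congr rfl fun _ _ => by ring

/-- Orthogonal polynomial vectors, of non-zero length at every point with enough positive weights. -/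
theorem exists_orth (m : ℕ) : ∀ n : ℕ, ∃ p : Fin n → Fin m → MvPolynomial (Fin m) ℝ,
    (∀ k l, k ≠ l → ip (p k) (p l) = 0) ∧
    ∀ t : Fin m → ℝ, (∀ s, 0 ≤ t s) → n ≤ (univ.filter fun s => 0 < t s).card →
      ∀ k : Fin n, (∃ P : Polynomial ℝ, P.natDegree ≤ k ∧ P.coeff k ≠ 0 ∧
          ∀ s, eval t (p k s) = P.eval ((s : ℕ) : ℝ)) ∧ 0 < eval t (ip (p k) (p k)) := by
  intro n
  induction n with
  | zero => exact ⟨Fin.elim0, fun k => k.elim0, fun _ _ _ k => k.elim0⟩
  | succ n ih =>
    obtain ⟨p, hp, hpos⟩ := ih
    let q : Fin n → MvPolynomial (Fin m) ℝ := fun i => ip (p i) (p i)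
    let w : Fin m → MvPolynomial (Fin m) ℝ := fun s => C (((s : ℕ) : ℝ) ^ n)
    let c : Fin n → MvPolynomial (Fin m) ℝ := fun i => (∏ l ∈ univ.erase i, q l) * ip w (p i)
    let v : Fin m → MvPolynomial (Fin m) ℝ := fun s => (∏ l, q l) * w s - ∑ i, c i * p i s
    have hv : ∀ i, ip v (p i) = 0 := by
      intro i
      have h1 : ip v (p i) = (∏ l, q l) * ip w (p i) - ∑ l, c l * ip (p l) (p i) := by
        simp only [ip, v, mul_sub, sub_mul, sum_sub_distrib, mul_sum, sum_mul]
        congr 1
        · exact sum_congr rfl fun s _ => by ring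
        · rw [sum_comm]
          exact sum_congr rfl fun l _ => sum_congr rfl fun s _ => by ring
      rw [h1, sum_eq_single i (fun l _ hl => by rw [hp l i hl, mul_zero])
        (fun h => absurd (mem_univ i) h), ← mul_prod_erase univ q (mem_univ i)]
      ring
    refine ⟨Fin.snoc p v, fun k l hkl => ?_, fun t ht hcard k => ?_⟩
    · induction k using Fin.lastCases with
      | last =>
        induction l using Fin.lastCases with
        | last => exact absurd rfl hkl
        | cast l => rw [Fin.snoc_last, Fin.snoc_castSucc]; exact hv l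
      | cast k =>
        induction l using Fin.lastCases with
        | last => rw [Fin.snoc_last, Fin.snoc_castSucc, ip_comm]; exact hv k
        | cast l =>
          rw [Fin.snoc_castSucc, Fin.snoc_castSucc]
          exact hp k l fun h => hkl (congrArg Fin.castSucc h)
    have hold := hpos t ht (by omega)
    induction k using Fin.lastCases with
    | cast k => simpa only [Fin.snoc_castSucc, Fin.val_castSucc] using hold k
    | last =>
      choose P hP using fun i => (hold i).1
      set Qt := eval t (∏ l, q l)
      have hQt : 0 < Qt := by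
        simp only [Qt, map_prod]
        exact prod_pos fun i _ => (hold i).2
      let F : Polynomial ℝ :=
        Polynomial.C Qt * Polynomial.X ^ n - ∑ i, Polynomial.C (eval t (c i)) * P i
      have hdeg : F.natDegree ≤ n := by
        refine (Polynomial.natDegree_sub_le _ _).trans (max_le ?_ ?_)
        · exact Polynomial.natDegree_C_mul_X_pow_le _ _
        · exact Polynomial.natDegree_sum_le_of_forall_le _ _ fun i _ =>
            (Polynomial.natDegree_C_mul_le _ _).trans ((hP i).1.trans i.isLt.le)
      have hcoeff : F.coeff n = Qt := by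
        simp only [F, Polynomial.coeff_sub, Polynomial.coeff_C_mul, Polynomial.coeff_X_pow_self,
          Polynomial.finsetSum_coeff, mul_one]
        rw [sum_eq_zero, sub_zero]
        intro i _
        rw [Polynomial.coeff_eq_zero_of_natDegree_lt ((hP i).1.trans_lt i.isLt), mul_zero]
      have hF : ∀ s : Fin m, eval t (v s) = F.eval ((s : ℕ) : ℝ) := by
        intro s
        simp only [v, F, w, map_sub, map_mul, map_sum, eval_C, Polynomial.eval_sub,
          Polynomial.eval_mul, Polynomial.eval_C, Polynomial.eval_pow, Polynomial.eval_X,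
          Polynomial.eval_finsetSum, (hP _).2.2]
        rfl
      rw [Fin.snoc_last, Fin.val_last]
      refine ⟨⟨F, hdeg, by rw [hcoeff]; exact hQt.ne', hF⟩, ?_⟩
      obtain ⟨s, hs, hs0⟩ : ∃ s, 0 < t s ∧ F.eval ((s : ℕ) : ℝ) ≠ 0 := by
        by_contra hcon
        push Not at hcon
        have hFz : F = 0 := by
          refine Polynomial.eq_zero_of_natDegree_lt_card_of_eval_eq_zero F
            (f := fun s : {s : Fin m // 0 < t s} => ((s.1 : ℕ) : ℝ)) ?_ (fun s => hcon s.1 s.2) ?_
          · exact fun a b h => Subtype.ext (Fin.ext (Nat.cast_injective h))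
          · rw [Fintype.card_subtype]
            omega
        rw [hFz, Polynomial.coeff_zero] at hcoeff
        exact hQt.ne hcoeff
      simp only [ip, map_sum, map_mul, eval_X, hF]
      refine sum_pos' (fun i _ => ?_) ⟨s, mem_univ s, ?_⟩
      · rw [mul_assoc]
        exact mul_nonneg (ht i) (mul_self_nonneg _)
      · rw [mul_assoc]
        exact mul_pos hs (mul_self_pos.2 hs0)

end Vale.Agent.P101.Colours
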