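import Vale.Agent.P101.OddPair

/-!
# P101: weighted matrix units from CAR modes
-/

noncomputable section

namespace Vale.Agent.P101.Colours

set_option linter.unusedSectionVars false

/-- The weight of the units of the modes of weights `q`. -/
def qprod {M : Type*} [Monoid M] : {n : ℕ} → (Fin n → M) → M
  | 0, _ => 1
  | _ + 1, q => q 0 * qprod fun k => q 0 * q 0 * q k.succ

theorem map_qprod {M M' F : Type*} [Monoid M] [Monoid M'] [FunLike F M M'] [MonoidHomClass F M M']
    (f : F) : ∀ {n : ℕ} (q : Fin n → M), f (qprod q) = qprod fun k => f (q k) := by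
  intro n
  induction n with
  | zero => exact fun _ => map_one f
  | succ n ih => intro q; simp [qprod, ih, map_mul]

theorem qprod_pos : ∀ {n : ℕ} (q : Fin n → ℝ), (∀ k, 0 < q k) → 0 < qprod q := by
  intro n
  induction n with
  | zero => exact fun _ _ => one_pos
  | succ n ih => exact fun q hq => mul_pos (hq 0) (ih _ fun k => mul_pos (mul_pos (hq 0) (hq 0)) (hq _))

/-- Weighted matrix units. -/
structure IsUnits {B ι : Type*} [CStarAlgebra B] [Fintype ι] [DecidableEq ι] (E : ι → ι → B) (Q : B) :
    Prop where
  star_E : ∀ a b, star (E a b) = E b a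
  mul_same : ∀ a b c, E a b * E b c = Q * E a c
  mul_ne : ∀ a b c d, b ≠ c → E a b * E c d = 0
  sum_diag : ∑ a, E a a = Q

variable {B : Type*} [CStarAlgebra B] [PartialOrder B] [StarOrderedRing B]

theorem IsUnits.reindex {ι κ : Type*} [Fintype ι] [DecidableEq ι] [Fintype κ] [DecidableEq κ]
    {E : ι → ι → B} {Q : B} (h : IsUnits E Q) (e : κ ≃ ι) :
    IsUnits (fun a b => E (e a) (e b)) Q :=
  ⟨fun _ _ => h.star_E _ _, fun _ _ _ => h.mul_same _ _ _,
    fun _ _ _ _ hne => h.mul_ne _ _ _ _ fun he => hne (e.injective he),
    (e.sum_comp fun a => E a a).trans h.sum_diag⟩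

/-- The weighted units of one mode. -/
theorem isUnits_two {x w r : B} (hxx : x * x = 0) (hwx : w = star x * x + x * star x)
    (h1 : x * star x * x = w * x) (h2 : star x * x * star x = w * star x) (hrr : r * r = w)
    (hrs : star r = r) (hrx : Commute r x) (hrx' : Commute r (star x))
    (hrw : Commute w r) :
    IsUnits ![![x * star x, r * x], ![r * star x, star x * x]] w := by
  have hss : star x * star x = 0 := by rw [← star_mul, hxx, star_zero]
  refine ⟨fun a c => ?_, fun a c d => ?_, fun a c d f hcd => ?_, ?_⟩
  · fin_cases a <;> fin_cases c <;> simp [hrs, hrx.eq, hrx'.eq]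
  · have u1 : r * x * (r * star x) = w * (x * star x) := by
      rw [hrx.symm.mul_mul_mul_comm, hrr]
    have u2 : r * star x * (r * x) = w * (star x * x) := by
      rw [hrx'.symm.mul_mul_mul_comm, hrr]
    have u3 : x * star x * (r * x) = w * (r * x) := by
      rw [← mul_assoc, mul_assoc x, ← hrx'.eq, ← mul_assoc x, ← hrx.eq, mul_assoc r, mul_assoc r,
        h1, ← mul_assoc, ← hrw.eq, mul_assoc]
    have u4 : star x * x * (r * star x) = w * (r * star x) := by
      rw [← mul_assoc, mul_assoc (star x), ← hrx.eq, ← mul_assoc (star x), ← hrx'.eq,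
        mul_assoc r, mul_assoc r, h2, ← mul_assoc, ← hrw.eq, mul_assoc]
    have u5 : r * x * (star x * x) = w * (r * x) := by
      rw [mul_assoc r, ← mul_assoc x, h1, ← mul_assoc, ← hrw.eq, mul_assoc]
    have u6 : r * star x * (x * star x) = w * (r * star x) := by
      rw [mul_assoc r, ← mul_assoc (star x), h2, ← mul_assoc, ← hrw.eq,
        mul_assoc]
    have u7 : x * star x * (x * star x) = w * (x * star x) := by
      rw [← mul_assoc, h1, mul_assoc]
    have u8 : star x * x * (star x * x) = w * (star x * x) := by
      rw [← mul_assoc, h2, mul_assoc]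
    fin_cases a <;> fin_cases c <;> fin_cases d <;> simp <;>
      first | exact u1 | exact u2 | exact u3 | exact u4 | exact u5 | exact u6 | exact u7 | exact u8
  · have z1 : x * star x * (r * star x) = 0 := by
      rw [mul_assoc x, ← mul_assoc (star x), ← hrx'.eq, mul_assoc r, hss, mul_zero, mul_zero]
    have z2 : x * star x * (star x * x) = 0 := by
      rw [mul_assoc x, ← mul_assoc (star x), hss, zero_mul, mul_zero]
    have z3 : star x * x * (x * star x) = 0 := by
      rw [mul_assoc (star x), ← mul_assoc x, hxx, zero_mul, mul_zero]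
    have z4 : star x * x * (r * x) = 0 := by
      rw [mul_assoc (star x), ← mul_assoc x, ← hrx.eq, mul_assoc r, hxx, mul_zero, mul_zero]
    have z5 : r * x * (x * star x) = 0 := by
      rw [mul_assoc r, ← mul_assoc x, hxx, zero_mul, mul_zero]
    have z6 : r * x * (r * x) = 0 := by
      rw [hrx.symm.mul_mul_mul_comm, hxx, mul_zero]
    have z7 : r * star x * (r * star x) = 0 := by
      rw [hrx'.symm.mul_mul_mul_comm, hss, mul_zero]
    have z8 : r * star x * (star x * x) = 0 := by
      rw [mul_assoc r, ← mul_assoc (star x), hss, zero_mul, mul_zero]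
    fin_cases a <;> fin_cases c <;> fin_cases d <;> fin_cases f <;> simp at hcd ⊢ <;>
      first | exact z1 | exact z2 | exact z3 | exact z4 | exact z5 | exact z6 | exact z7 | exact z8
  · rw [Fin.sum_univ_two, hwx]
    simp [add_comm]


/-- CAR modes give matrix units. -/
theorem exists_units : ∀ {n : ℕ} (b q : Fin n → B), IsCAR b q →
    ∃ (E : Fin (2 ^ n) → Fin (2 ^ n) → B), IsUnits E (qprod q) ∧
      ∀ y, (∀ k, StarCommute y (b k)) → ∀ a c, Commute y (E a c) := by
  intro n
  induction n with
  | zero =>
    intro b q _
    have hsub : ∀ a c : Fin (2 ^ 0), a = c := fun a c => Fin.ext (by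
      have := a.isLt; have := c.isLt; omega)
    refine ⟨fun _ _ => 1, ⟨fun _ _ => star_one B, fun _ _ _ => rfl,
      fun a b c d h => absurd (hsub b c) h, ?_⟩, fun y _ _ _ => Commute.one_right y⟩
    rw [Finset.sum_eq_single (⟨0, by norm_num⟩ : Fin (2 ^ 0)) (fun a _ h => absurd (hsub a _) h)
      (fun h => absurd (Finset.mem_univ _) h)]
    rfl
  | succ n ih =>
    intro b q hb
    set x := b 0 with hx
    set w := q 0 with hw
    have hxx : x * x = 0 := by
      have h := hb.anti 0 0
      have h2 : (2 : ℂ) • (x * x) = 0 := by rw [two_smul]; exact h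
      exact (smul_eq_zero.1 h2).resolve_left two_ne_zero
    have hwx : w = star x * x + x * star x := by rw [hb.weight 0 0, if_pos rfl]
    have hw0 : 0 ≤ w := hwx ▸ add_nonneg (star_mul_self_nonneg x) (mul_star_self_nonneg x)
    have hsq : ∀ k, star (q k) = q k := fun k => by
      have h := hb.weight k k
      rw [if_pos rfl] at h
      rw [← h, star_add, star_mul, star_mul, star_star]
    have hqb : ∀ k l, Commute (q k) (star (b l)) := fun k l => by
      have h := (hb.comm k l).star_star
      rwa [hsq] at h
    have hss : star x * star x = 0 := by rw [← star_mul, hxx, star_zero]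
    have hws : star w = w := hsq 0
    have hwc : Commute w x := hb.comm 0 0
    have hwc' : Commute w (star x) := hqb 0 0
    have h1 : x * star x * x = w * x := by
      rw [hwx, add_mul, mul_assoc (star x), hxx, mul_zero, zero_add]
    have h2 : star x * x * star x = w * star x := by
      rw [hwx, add_mul, mul_assoc x, hss, mul_zero, add_zero]
    set P := x * star x - star x * x with hP
    have hPs : star P = P := by rw [hP, star_sub, star_mul, star_mul, star_star]
    have hPx : P * x = w * x := by
      rw [hP, sub_mul, h1, mul_assoc (star x) x x, hxx, mul_zero, sub_zero]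
    have hxP : x * P = -(w * x) := by
      rw [hP, mul_sub, ← mul_assoc x x, hxx, zero_mul, zero_sub, ← mul_assoc, h1]
    have hPP : P * P = w * w := by
      calc P * P = P * (x * star x - star x * x) := by rw [← hP]
        _ = P * x * star x - (P * star x) * x := by noncomm_ring
        _ = w * x * star x - (-(w * star x)) * x := by
          have h3 : P * star x = -(w * star x) := by
            have := congrArg star hxP
            rwa [star_mul, hPs, star_neg, star_mul, hws, ← hwc'.eq] at this
          rw [hPx, h3]
        _ = w * w := by nth_rw 4 [hwx]; noncomm_ring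
    -- the even element `P` commutes with the other modes
    have heven : ∀ k : Fin n, Commute (star x * x) (b k.succ) ∧ Commute (x * star x) (b k.succ) := by
      intro k
      have hne : (0 : Fin (n + 1)) ≠ k.succ := (Fin.succ_ne_zero k).symm
      have e1 : x * b k.succ = -(b k.succ * x) := eq_neg_of_add_eq_zero_left (hb.anti 0 k.succ)
      have e2 : star x * b k.succ = -(b k.succ * star x) :=
        eq_neg_of_add_eq_zero_left ((hb.weight 0 k.succ).trans (if_neg hne))
      constructor
      · show star x * x * b k.succ = b k.succ * (star x * x)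
        rw [mul_assoc, e1, mul_neg, ← mul_assoc, e2, neg_mul, neg_neg, mul_assoc]
      · show x * star x * b k.succ = b k.succ * (x * star x)
        rw [mul_assoc, e2, mul_neg, ← mul_assoc, e1, neg_mul, neg_neg, mul_assoc]
    have hPb : ∀ k : Fin n, Commute P (b k.succ) := fun k => (heven k).2.sub_left (heven k).1
    have hPb' : ∀ k : Fin n, Commute P (star (b k.succ)) := fun k => by
      have h := (hPb k).star_star
      rwa [hPs] at h
    have hqx : ∀ k, Commute (q k) (x * star x) ∧ Commute (q k) (star x * x) := fun k =>
      ⟨(hb.comm k 0).mul_right (hqb k 0), (hqb k 0).mul_right (hb.comm k 0)⟩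
    have hqP : ∀ k, Commute (q k) P := fun k => (hqx k).1.sub_right (hqx k).2
    -- the remaining modes
    let b' : Fin n → B := fun k => P * b k.succ
    have hb' : IsCAR b' fun k => w * w * q k.succ := by
      refine ⟨fun k l => ?_, fun k l => ?_, fun k l => ?_⟩
      · show P * b k.succ * (P * b l.succ) + P * b l.succ * (P * b k.succ) = 0
        rw [(hPb k).symm.mul_mul_mul_comm, (hPb l).symm.mul_mul_mul_comm, ← mul_add, hb.anti,
          mul_zero]
      · show star (P * b k.succ) * (P * b l.succ) + P * b l.succ * star (P * b k.succ) = _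
        rw [star_mul, hPs, ← (hPb' k).eq, (hPb' k).symm.mul_mul_mul_comm,
          (hPb l).symm.mul_mul_mul_comm, ← mul_add, hb.weight, hPP]
        simp only [Fin.succ_inj]
        split_ifs <;> simp
      · show Commute (w * w * q k.succ) (P * b l.succ)
        exact (((hqP 0).mul_left (hqP 0)).mul_left (hqP _)).mul_right
          (((hb.comm 0 _).mul_left (hb.comm 0 _)).mul_left (hb.comm _ _))
    obtain ⟨E', hE', hEc⟩ := ih b' _ hb'
    set Q' := qprod fun k => w * w * q k.succ
    -- the units of the first mode
    set r := CFC.sqrt w with hr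
    have hrr : r * r = w := CFC.sqrt_mul_sqrt_self w hw0
    have hrs : star r = r := (IsSelfAdjoint.of_nonneg (CFC.sqrt_nonneg w)).star_eq
    have hrc : ∀ y, Commute y w → Commute y r := fun y hy => by
      rw [hr, CFC.sqrt_eq_cfc]
      exact (hy.symm.cfc_nnreal _).symm
    have hrx : Commute r x := (hrc x hwc.symm).symm
    have hrx' : Commute r (star x) := (hrc _ hwc'.symm).symm
    let e : Fin 2 → Fin 2 → B := ![![x * star x, r * x], ![r * star x, star x * x]]
    have he : IsUnits e w :=
      isUnits_two hxx hwx h1 h2 hrr hrs hrx hrx' (hrc w (Commute.refl w))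
    have hxb : ∀ k : Fin n, StarCommute x (b' k) := by
      intro k
      have e1 : x * b k.succ = -(b k.succ * x) := eq_neg_of_add_eq_zero_left (hb.anti 0 k.succ)
      have e2 : star x * b k.succ = -(b k.succ * star x) :=
        eq_neg_of_add_eq_zero_left ((hb.weight 0 k.succ).trans (if_neg (Fin.succ_ne_zero k).symm))
      have hPxs : P * star x = -(w * star x) := by
        have := congrArg star hxP
        rwa [star_mul, hPs, star_neg, star_mul, hws, ← hwc'.eq] at this
      refine ⟨?_, ?_⟩
      · show x * (P * b k.succ) = P * b k.succ * x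
        rw [← mul_assoc, hxP, neg_mul, mul_assoc w, e1, mul_neg, neg_neg, (hPb k).eq, mul_assoc,
          hPx, ← mul_assoc, ← mul_assoc, (hb.comm 0 _).eq]
      · have hc : Commute (star x) (P * b k.succ) := by
          show star x * (P * b k.succ) = P * b k.succ * star x
          have e3 : star x * P = w * star x := by
            have := congrArg star hPx
            rwa [star_mul, hPs, star_mul, hws, ← hwc'.eq] at this
          rw [← mul_assoc, e3, mul_assoc w, e2, mul_neg, (hPb k).eq, mul_assoc _ P, hPxs, mul_neg,
            ← mul_assoc, ← mul_assoc, (hb.comm 0 _).eq]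
        have := hc.star_star
        rwa [star_star] at this
    have hxsb : ∀ k : Fin n, StarCommute (star x) (b' k) := fun k =>
      ⟨star_star (b' k) ▸ (hxb k).2.star_star, (hxb k).1.star_star⟩
    have hwb : ∀ k : Fin n, StarCommute w (b' k) := fun k => by
      have h : Commute w (P * b k.succ) := (hqP 0).mul_right (hb.comm 0 _)
      exact ⟨h, by have h' := h.star_star; rw [hws] at h'; exact h'⟩
    have hee : ∀ a c i j, Commute (e a c) (E' i j) := by
      intro a c i j
      have h1 := hEc x hxb i j
      have h2 := hEc (star x) hxsb i j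
      have h3 : Commute r (E' i j) := (hrc _ (hEc w hwb i j).symm).symm
      fin_cases a <;> fin_cases c
      exacts [h1.mul_left h2, h3.mul_left h1, h3.mul_left h2, h2.mul_left h1]
    let E : Fin 2 × Fin (2 ^ n) → Fin 2 × Fin (2 ^ n) → B := fun a c => e a.1 c.1 * E' a.2 c.2
    have hwE : ∀ i j, Commute w (E' i j) := fun i j => hEc w hwb i j
    have hQe : ∀ a c, Commute (e a c) Q' := fun a c =>
      hE'.sum_diag ▸ Commute.sum_right _ _ _ fun i _ => hee a c i i
    have hprod : IsUnits E (w * Q') := by
      refine ⟨fun a c => ?_, fun a c d => ?_, fun a c d f hne => ?_, ?_⟩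
      · simp only [E, star_mul, he.star_E, hE'.star_E]
        exact (hee _ _ _ _).symm.eq
      · simp only [E]
        rw [(hee c.1 d.1 a.2 c.2).symm.mul_mul_mul_comm, he.mul_same, hE'.mul_same,
          (hQe a.1 d.1).mul_mul_mul_comm]
      · simp only [E]
        rw [(hee d.1 f.1 a.2 c.2).symm.mul_mul_mul_comm]
        by_cases h : c.1 = d.1
        · rw [hE'.mul_ne _ _ _ _ fun h' => hne (Prod.ext h h'), mul_zero]
        · rw [he.mul_ne _ _ _ _ h, zero_mul]
      · simp only [E, Fintype.sum_prod_type, ← Finset.mul_sum, hE'.sum_diag, ← Finset.sum_mul,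
          he.sum_diag]
    refine ⟨_, hprod.reindex ((finProdFinEquiv.trans (finCongr (pow_succ' 2 n).symm)).symm),
      fun y hy a c => ?_⟩
    have hy1 := (hy 0).1
    have hy2 := (hy 0).2
    have hyw : Commute y w := hwx ▸ (hy2.mul_right hy1).add_right (hy1.mul_right hy2)
    have hye : ∀ i j, Commute y (e i j) := by
      intro i j
      fin_cases i <;> fin_cases j
      exacts [hy1.mul_right hy2, (hrc y hyw).mul_right hy1, (hrc y hyw).mul_right hy2,
        hy2.mul_right hy1]
    have hyP : Commute y P := (hy1.mul_right hy2).sub_right (hy2.mul_right hy1)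
    refine (hye _ _).mul_right (hEc y (fun k => ?_) _ _)
    refine ⟨hyP.mul_right (hy k.succ).1, ?_⟩
    rw [star_mul, hPs]
    exact (hy k.succ).2.mul_right hyP

end Vale.Agent.P101.Colours
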